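import Vale.Agent.P273.D14.H462.Zero
import Vale.Agent.P273.D14.H18.Drop

/-!
The relations that have to be checked for an antisymmetric functional with the support property.
-/

noncomputable section
namespace Vale.Agent.P273.D14.H462
open Sum Vale.Agent.P273 Vale.Agent.P273.C1.R3B Vale.Agent.P273.C1.R1B
open scoped Classical

variable {V E L N R T : Type}

/-- The legs: `(i, true)` is `A i` and `(i, false)` is `B i`. -/
abbrev LL : Type := Fin 8 × Bool

/-- Antisymmetry in the legs of each colour. -/
def AS (G : Q.Fn LL) : Prop := ∀ (i j : Fin 8) (c : Bool), i ≠ j →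
  ∀ V E a f, G V E a (fun y => f (y.map id (Equiv.swap (i, c) (j, c)))) = - G V E a f

/-- Exactly two legs of each colour are at the place of the relation: the leg `i c t` of the
colour `c` is at the position `x c t`. -/
structure Two (u : (T × Bool) ⊕ LL → L ⊕ R × ℕ) (i : Bool → Bool → Fin 8)
    (x : Bool → Bool → L) : Prop where
  pos : ∀ c t, u (inr (i c t, c)) = inl (x c t)
  ne : ∀ c, i c true ≠ i c false
  rest : ∀ c j, j ≠ i c true → j ≠ i c false → ∃ p, u (inr (j, c)) = inr p

/-- Exactly one leg of each colour is at the place of the relation: the leg `i c` of the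
colour `c` is at the position `x c`. -/
structure One (u : (T × Bool) ⊕ LL → L ⊕ R × ℕ) (i : Bool → Fin 8) (x : Bool → L) : Prop where
  pos : ∀ c, u (inr (i c, c)) = inl (x c)
  rest : ∀ c j, j ≠ i c → ∃ p, u (inr (j, c)) = inr p

/-- The relations in genus 0. -/
def F0 (G : Q.Fn LL) : Prop := ∀ (R T L : Type) [Finite R] [Finite T] [Finite L]
  (r : R → ℕ × Multiset ℕ) (u : (T × Bool) ⊕ LL → L ⊕ R × ℕ), (∀ v, 0 ∉ (r v).2) →
  (∀ y z x, u y = inl x → u z = inl x → y = z) →
  ∀ (i : Bool → Bool → Fin 8) (x : Bool → Bool → L), Two u i x → (∀ z, inl z ∈ Set.range u) →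
  rl G r u (fun _ => 0) (fun z => if z = x true true ∨ z = x false true then 1 else 0) 0 1 = 0

/-- The relations in genus 1 with one leg of each colour. -/
def F11 (G : Q.Fn LL) : Prop := ∀ (R T L : Type) [Finite R] [Finite T] [Finite L]
  (r : R → ℕ × Multiset ℕ) (u : (T × Bool) ⊕ LL → L ⊕ R × ℕ), (∀ v, 0 ∉ (r v).2) →
  (∀ y z x, u y = inl x → u z = inl x → y = z) →
  ∀ (i : Bool → Fin 8) (x : Bool → L), One u i x →
  ∀ z0, (∀ z, z ≠ z0 → inl z ∈ Set.range u) →
  rl G r u (fun _ => 0) (fun z => if z = z0 then 1 else 0) 1 1 = 0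

/-- The relations of degree 1 in genus 1 with two legs of each colour. -/
def F12b (G : Q.Fn LL) : Prop := ∀ (R T L : Type) [Finite R] [Finite T] [Finite L]
  (r : R → ℕ × Multiset ℕ) (u : (T × Bool) ⊕ LL → L ⊕ R × ℕ), (∀ v, 0 ∉ (r v).2) →
  (∀ y z x, u y = inl x → u z = inl x → y = z) →
  ∀ (i : Bool → Bool → Fin 8) (x : Bool → Bool → L), Two u i x →
  ∀ c : Bool, (∀ z, inl z ∈ Set.range u) →
  rl G r u (fun z => if z = x c true then 1 else 0) (fun z => if z = x (!c) true then 1 else 0)
    1 1 = 0

/-- The relations of degree 2 in genus 1 with two legs of each colour. -/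
def F12 (G : Q.Fn LL) : Prop := ∀ (R T L : Type) [Finite R] [Finite T] [Finite L]
  (r : R → ℕ × Multiset ℕ) (u : (T × Bool) ⊕ LL → L ⊕ R × ℕ), (∀ v, 0 ∉ (r v).2) →
  (∀ y z x, u y = inl x → u z = inl x → y = z) →
  ∀ (i : Bool → Bool → Fin 8) (x : Bool → Bool → L), Two u i x →
  ∀ Z : Finset L, (Z.card = 0 ∨ Z.card = 2) → (∀ z ∈ Z, ∀ c t, z ≠ x c t) →
  (∀ z, z ∉ Z → inl z ∈ Set.range u) →
  rl G r u (fun _ => 0) (fun z => if z = x true true ∨ z = x false true ∨ z ∈ Z then 1 else 0)
    1 2 = 0

/-- The relations in genus 2. -/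
def F2 (G : Q.Fn LL) : Prop := ∀ (R T L : Type) [Finite R] [Finite T] [Finite L]
  (r : R → ℕ × Multiset ℕ) (u : (T × Bool) ⊕ LL → L ⊕ R × ℕ) (b A : L → ℕ) (e : ℕ),
  (∀ v, 0 ∉ (r v).2) → (∀ y z x, u y = inl x → u z = inl x → y = z) → (∀ x, A x ≤ 1) →
  2 + ∑ᶠ x, A x < 3 * e →
  rl G r u b A 2 e = 0

/-- The positions of the legs of the colour `c`. -/
def X [Fintype L] (u : (T × Bool) ⊕ LL → L ⊕ R × ℕ) (c : Bool) : Finset L :=
  Finset.univ.filter fun x => ∃ i, u (inr (i, c)) = inl x

lemma mem_X [Fintype L] {u : (T × Bool) ⊕ LL → L ⊕ R × ℕ} {c : Bool} {x : L} :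
    x ∈ X u c ↔ ∃ i, u (inr (i, c)) = inl x := by simp [X]

lemma card_X [Fintype L] {u : (T × Bool) ⊕ LL → L ⊕ R × ℕ}
    (hu : ∀ y z x, u y = inl x → u z = inl x → y = z) (c : Bool) :
    (X u c).card = Nat.card (Ps u c) := by
  have hq : ∀ p : Ps u c, ∃ x, u (inr (p.1, c)) = inl x := fun p => p.2
  choose q hq using hq
  have hinj : q.Injective := by
    intro p p' h
    have := hu _ _ _ (hq p) (by rw [h]; exact hq p')
    simp only [inr.injEq, Prod.mk.injEq, and_true] at this
    exact Subtype.ext this
  have h1 : X u c = Finset.univ.image q := by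
    ext x
    rw [mem_X]
    simp only [Finset.mem_image, Finset.mem_univ, true_and]
    constructor
    · rintro ⟨i, hi⟩
      refine ⟨⟨i, x, hi⟩, ?_⟩
      exact inl.inj ((hq ⟨i, x, hi⟩).symm.trans hi)
    · rintro ⟨p, rfl⟩
      exact ⟨p.1, hq p⟩
  rw [h1, Finset.card_image_of_injective _ hinj, Finset.card_univ, Nat.card_eq_fintype_card]

lemma disj_X [Fintype L] {u : (T × Bool) ⊕ LL → L ⊕ R × ℕ}
    (hu : ∀ y z x, u y = inl x → u z = inl x → y = z) : Disjoint (X u true) (X u false) := by
  rw [Finset.disjoint_left]
  intro x h1 h2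
  rw [mem_X] at h1 h2
  obtain ⟨i, hi⟩ := h1
  obtain ⟨j, hj⟩ := h2
  have := hu _ _ _ hi hj
  simp at this

lemma anti_X {G : Q.Fn LL} (hAS : AS G) [Fintype L] {r : R → ℕ × Multiset ℕ}
    {u : (T × Bool) ⊕ LL → L ⊕ R × ℕ} {b A : L → ℕ} {γ e : ℕ}
    (hu : ∀ y z x, u y = inl x → u z = inl x → y = z) (hne : rl G r u b A γ e ≠ 0) {c : Bool}
    {x y : L} (hx : x ∈ X u c) (hy : y ∈ X u c) (hA : A x = A y) (hb : b x = b y) : x = y := by
  rw [mem_X] at hx hy
  obtain ⟨i, hi⟩ := hx
  obtain ⟨j, hj⟩ := hy
  by_contra hxy
  have hij : i ≠ j := by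
    rintro rfl
    rw [hi] at hj
    exact hxy (inl.inj hj)
  refine hne (rl_anti G r u b A γ e hu (i, c) (j, c) ?_ x y hi hj hA hb)
  intro V E a f
  refine Eq.trans ?_ (hAS i j c hij V E a f)
  rw [swap_eq]

/-- Split a sum over the positions. -/
lemma sum_split [Fintype L] {u : (T × Bool) ⊕ LL → L ⊕ R × ℕ}
    (hu : ∀ y z x, u y = inl x → u z = inl x → y = z) (F : L → ℕ) :
    ∑ x, F x = ∑ x ∈ X u true, F x + ∑ x ∈ X u false, F x +
      ∑ x ∈ (X u true ∪ X u false)ᶜ, F x := by
  rw [← Finset.sum_union (disj_X hu), Finset.sum_add_sum_compl]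

/-- The two positions. -/
lemma two_pos [Fintype L] {u : (T × Bool) ⊕ LL → L ⊕ R × ℕ} {b A : L → ℕ}
    (hA : ∀ x, A x ≤ 1) {c : Bool}
    (hinj : ∀ x ∈ X u c, ∀ y ∈ X u c, A x = A y → b x = b y → x = y) (h2 : (X u c).card = 2) :
    ∃ x : Bool → L, x true ≠ x false ∧ X u c = {x true, x false} ∧
      A (x false) + 3 * b (x false) < A (x true) + 3 * b (x true) := by
  rw [Finset.card_eq_two] at h2
  obtain ⟨x, y, hxy, h⟩ := h2
  have hx := hA x
  have hy := hA y
  have hne : A x + 3 * b x ≠ A y + 3 * b y := by
    intro h'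
    apply hxy
    apply hinj x (by rw [h]; simp) y (by rw [h]; simp)
    · omega
    · omega
  rcases lt_or_gt_of_ne hne with h' | h'
  · refine ⟨fun t => cond t y x, fun h'' => hxy h''.symm, ?_, h'⟩
    rw [h]
    ext z
    simp only [Finset.mem_insert, Finset.mem_singleton, cond_true, cond_false]
    tauto
  · exact ⟨fun t => cond t x y, hxy, h, h'⟩

lemma two_of [Fintype L] {u : (T × Bool) ⊕ LL → L ⊕ R × ℕ}
    (hu : ∀ y z x, u y = inl x → u z = inl x → y = z) {x : Bool → Bool → L} (hne : ∀ c, x c true ≠ x c false)
    (hX : ∀ c, X u c = {x c true, x c false}) : ∃ i, Two u i x := by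
  have h1 : ∀ c t, ∃ i, u (inr (i, c)) = inl (x c t) := by
    intro c t
    rw [← mem_X, hX]
    cases t <;> simp
  choose i hi using h1
  refine ⟨i, hi, ?_, ?_⟩
  · intro c h
    have h2 := hi c true
    rw [h, hi c false] at h2
    exact hne c (inl.inj h2).symm
  · intro c j h1 h2
    rcases h : u (inr (j, c)) with z | p
    · exfalso
      have h3 : z ∈ X u c := mem_X.2 ⟨j, h⟩
      rw [hX] at h3
      simp only [Finset.mem_insert, Finset.mem_singleton] at h3
      have h4 : ∀ t, z = x c t → j = i c t := by
        intro t hz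
        have := hu _ _ _ h (by rw [hz]; exact hi c t)
        simpa using this
      rcases h3 with h3 | h3
      · exact h1 (h4 true h3)
      · exact h2 (h4 false h3)
    · exact ⟨p, rfl⟩

lemma al_num {K γ : ℕ} (h1 : 1 ≤ K) (h8 : K ≤ 8) (hγ : γ ≤ 1) (h : 4 + 2 * al K ≤ 3 * K + 2 * γ) :
    K = 2 ∨ (K = 1 ∧ γ = 1) := by
  interval_cases K <;> simp [al, Finset.sum_range_succ] at h ⊢ <;> omega

/-- The dispatch, for relations in which the forgotten legs carry something. -/
theorem rl_of_fam {G : Q.Fn LL} (hTr : Q.Tr 2 9 G) (hSP : SP G) (hAS : AS G) (h0 : F0 G)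
    (h11 : F11 G) (h12 : F12 G) (h12b : F12b G) (h2 : F2 G) [Finite R] [Finite T] [Finite L]
    (r : R → ℕ × Multiset ℕ) (u : (T × Bool) ⊕ LL → L ⊕ R × ℕ) (b A : L → ℕ) (γ e : ℕ)
    (hr : ∀ v, 0 ∉ (r v).2)
    (hu : ∀ y z x, u y = inl x → u z = inl x → y = z) (hA : ∀ x, A x ≤ 1)
    (hlt : γ + ∑ᶠ x, A x < 3 * e)
    (hNZ : ∀ z, inl z ∉ Set.range u → A z ≠ 0 ∨ b z ≠ 0) : rl G r u b A γ e = 0 := by
  have := Fintype.ofFinite L
  by_contra hne
  obtain ⟨K, hK1, hKt, hKf, hsum, hγ, hev⟩ := counts hTr hSP ⟨r, u, b⟩ hu A γ e hne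
  have hcard : ∀ c, (X u c).card = K := by
    intro c
    rw [card_X hu]
    cases c
    · exact hKf
    · exact hKt
  have hinj : ∀ c, ∀ x ∈ X u c, ∀ y ∈ X u c, A x = A y → b x = b y → x = y := by
    intro c x hx y hy h3 h4
    exact anti_X hAS hu hne hx hy h3 h4
  rw [finsum_eq_sum_of_fintype] at hsum hlt hev
  have hK8 : K ≤ 8 := by
    rw [← hKt]
    have : Nat.card (Ps u true) ≤ Nat.card (Fin 8) := Nat.card_le_card_of_injective _
      Subtype.val_injective
    simpa using this
  have htot : 4 + ∑ x, (A x + 3 * b x) ≤ 3 * K + 2 * γ := by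
    have : ∑ x, (A x + 3 * b x) = ∑ x, A x + 3 * ∑ x, b x := by
      rw [Finset.sum_add_distrib, ← Finset.mul_sum]
    dsimp only at hsum
    omega
  have hal : ∀ c, al K ≤ ∑ x ∈ X u c, (A x + 3 * b x) := by
    intro c
    have h3 := al_le (X := {x // x ∈ X u c}) (fun x => A x.1) (fun x => b x.1)
      (fun x => hA x.1) (fun x y h3 h4 => Subtype.ext (hinj c x.1 x.2 y.1 y.2 h3 h4))
    rw [Fintype.card_coe, hcard] at h3
    rwa [Finset.sum_coe_sort (X u c) (fun x => A x + 3 * b x)] at h3
  have hspl := sum_split hu (fun x => A x + 3 * b x)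
  have hsplA := sum_split hu (fun x => A x)
  have hsplb := sum_split hu (fun x => b x)
  have ht := hal true
  have hf := hal false
  have hzero : ∀ (F : L → ℕ), ∑ x ∈ (X u true ∪ X u false)ᶜ, F x = 0 →
      ∀ z, (∀ c, z ∉ X u c) → F z = 0 := by
    intro F hF z hz
    refine (Finset.sum_eq_zero_iff.mp hF) z ?_
    rw [Finset.mem_compl, Finset.mem_union]
    rintro (h | h)
    · exact hz true h
    · exact hz false h
  have huse : ∀ c z, z ∈ X u c → inl z ∈ Set.range u := by
    intro c z hz
    obtain ⟨i, hi⟩ := mem_X.1 hz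
    exact ⟨_, hi⟩
  have he : 1 ≤ e := by omega
  rcases (show γ = 2 ∨ γ ≤ 1 by omega) with rfl | hγ1
  · rw [← finsum_eq_sum_of_fintype] at hlt
    exact hne (h2 R T L r u b A e hr hu hA hlt)
  rcases al_num hK1 hK8 hγ1 (by omega) with rfl | ⟨rfl, rfl⟩
  · -- two legs of each colour
    have hal2 : al 2 = 1 := by decide
    have h4 : ∀ c, ∃ x : Bool → L, x true ≠ x false ∧ X u c = {x true, x false} ∧
      A (x false) + 3 * b (x false) < A (x true) + 3 * b (x true) := fun c =>
      two_pos hA (hinj c) (hcard c)
    choose x hxne hX hxlt using h4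
    obtain ⟨i, hi⟩ := two_of hu hxne hX
    have hsum2 : ∀ c (F : L → ℕ), ∑ z ∈ X u c, F z = F (x c true) + F (x c false) := by
      intro c F
      rw [hX, Finset.sum_pair (hxne c)]
    simp only [hsum2] at hspl hsplA hsplb ht hf
    rw [hal2] at ht hf
    have hA1 := hA (x true true)
    have hA2 := hA (x true false)
    have hA3 := hA (x false true)
    have hA4 := hA (x false false)
    have hl1 := hxlt true
    have hl2 := hxlt false
    dsimp only at hsum
    have hx : ∀ c t, x c t ∈ X u c := by
      intro c t
      rw [hX]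
      cases t <;> simp
    have hd : ∀ t t', x true t ≠ x false t' := by
      intro t t' h
      have h3 := Finset.disjoint_left.mp (disj_X hu) (hx true t)
      rw [h] at h3
      exact h3 (hx false t')
    have hcases : ∀ z, (∀ c, z ∉ X u c) ∨ ∃ c t, z = x c t := by
      intro z
      by_cases h : ∃ c, z ∈ X u c
      · obtain ⟨c, hz⟩ := h
        right
        rw [hX] at hz
        simp only [Finset.mem_insert, Finset.mem_singleton] at hz
        rcases hz with hz | hz
        · exact ⟨c, true, hz⟩
        · exact ⟨c, false, hz⟩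
      · left
        push Not at h
        exact h
    have hnX : ∀ z, (∀ c, z ∉ X u c) → ∀ c t, z ≠ x c t := by
      intro z hz c t h
      exact hz c (h ▸ hx c t)
    rcases (show γ = 0 ∨ γ = 1 by omega) with rfl | rfl
    · -- genus 0
      have he1 : e = 1 := by omega
      have hb0 : ∑ x, b x = 0 := by omega
      have hb : b = fun _ => 0 := by
        funext z
        exact (Finset.sum_eq_zero_iff.mp hb0) z (Finset.mem_univ z)
      have hb' : ∀ z, b z = 0 := fun z => by rw [hb]
      simp only [hb'] at hl1 hl2 ht hf hspl hNZ htot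
      have hA0 : ∀ z, (∀ c, z ∉ X u c) → A z = 0 := hzero A (by omega)
      have a1 : A (x true true) = 1 := by omega
      have a2 : A (x true false) = 0 := by omega
      have a3 : A (x false true) = 1 := by omega
      have a4 : A (x false false) = 0 := by omega
      have hAe : A = fun z => if z = x true true ∨ z = x false true then 1 else 0 := by
        funext z
        rcases hcases z with h | ⟨c, t, rfl⟩
        · rw [hA0 z h, if_neg]
          rintro (h' | h')
          · exact hnX z h true true h'
          · exact hnX z h false true h'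
        · cases c <;> cases t
          · rw [a4, if_neg]
            rintro (h' | h')
            · exact hd _ _ h'.symm
            · exact hxne false h'.symm
          · rw [a3, if_pos (Or.inr rfl)]
          · rw [a2, if_neg]
            rintro (h' | h')
            · exact hxne true h'.symm
            · exact hd _ _ h'
          · rw [a1, if_pos (Or.inl rfl)]
      have hall : ∀ z, inl z ∈ Set.range u := by
        intro z
        rcases hcases z with h | ⟨c, t, rfl⟩
        · by_contra hcon
          have := hNZ z hcon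
          rw [hA0 z h] at this
          simp at this
        · exact huse c _ (hx c t)
      apply hne
      rw [hb, hAe, he1]
      exact h0 R T L r u hr hu i x hi hall
    · -- genus 1
      rcases (show e = 2 ∨ e = 1 by omega) with rfl | rfl
      · have hb0 : ∑ x, b x = 0 := by omega
        have hb : b = fun _ => 0 := by
          funext z
          exact (Finset.sum_eq_zero_iff.mp hb0) z (Finset.mem_univ z)
        have hb' : ∀ z, b z = 0 := fun z => by rw [hb]
        simp only [hb'] at hl1 hl2 ht hf hspl hNZ htot
        have a1 : A (x true true) = 1 := by omega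
        have a2 : A (x true false) = 0 := by omega
        have a3 : A (x false true) = 1 := by omega
        have a4 : A (x false false) = 0 := by omega
        rw [a1, a2, a3, a4] at hsplA
        let Z : Finset L := (X u true ∪ X u false)ᶜ.filter fun z => A z = 1
        have hZ : Z.card = ∑ z ∈ (X u true ∪ X u false)ᶜ, A z := by
          rw [Finset.card_filter]
          apply Finset.sum_congr rfl
          intro z _
          have := hA z
          split_ifs <;> omega
        have hmZ : ∀ z, z ∈ Z ↔ (∀ c, z ∉ X u c) ∧ A z = 1 := by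
          intro z
          rw [Finset.mem_filter, Finset.mem_compl, Finset.mem_union]
          constructor
          · rintro ⟨h1, h2⟩
            refine ⟨fun c hc => h1 ?_, h2⟩
            cases c
            · exact Or.inr hc
            · exact Or.inl hc
          · rintro ⟨h1, h2⟩
            refine ⟨?_, h2⟩
            rintro (h | h)
            · exact h1 _ h
            · exact h1 _ h
        have hZ2 : Z.card = 0 ∨ Z.card = 2 := by
          obtain ⟨n, hn⟩ := hev
          rw [hZ]
          omega
        have hAe : A = fun z => if z = x true true ∨ z = x false true ∨ z ∈ Z then 1 else 0 := by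
          funext z
          rcases hcases z with h | ⟨c, t, rfl⟩
          · have := hA z
            rcases (show A z = 0 ∨ A z = 1 by omega) with h3 | h3
            · rw [h3, if_neg]
              rintro (h' | h' | h')
              · exact hnX z h true true h'
              · exact hnX z h false true h'
              · rw [hmZ] at h'
                omega
            · rw [h3, if_pos (Or.inr (Or.inr ((hmZ z).2 ⟨h, h3⟩)))]
          · cases c <;> cases t
            · rw [a4, if_neg]
              rintro (h' | h' | h')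
              · exact hd _ _ h'.symm
              · exact hxne false h'.symm
              · exact ((hmZ _).1 h').1 _ (hx false false)
            · rw [a3, if_pos (Or.inr (Or.inl rfl))]
            · rw [a2, if_neg]
              rintro (h' | h' | h')
              · exact hxne true h'.symm
              · exact hd _ _ h'
              · exact ((hmZ _).1 h').1 _ (hx true false)
            · rw [a1, if_pos (Or.inl rfl)]
        have hall : ∀ z, z ∉ Z → inl z ∈ Set.range u := by
          intro z hz
          rcases hcases z with h | ⟨c, t, rfl⟩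
          · by_contra hcon
            have h3 := hNZ z hcon
            have h4 := hA z
            apply hz
            rw [hmZ]
            refine ⟨h, ?_⟩
            omega
          · exact huse c _ (hx c t)
        apply hne
        rw [hb, hAe]
        exact h12 R T L r u hr hu i x hi Z hZ2 (fun z hz c t => hnX z ((hmZ z).1 hz).1 c t) hall
      · have hsb : ∑ x, b x = 1 := by omega
        have hsA : ∑ x, A x = 1 := by
          obtain ⟨n, hn⟩ := hev
          have : ∑ x, (A x + 3 * b x) = ∑ x, A x + 3 * ∑ x, b x := by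
            rw [Finset.sum_add_distrib, ← Finset.mul_sum]
          omega
        rw [hsA] at hsplA
        rw [hsb] at hsplb
        obtain ⟨c, p1, p2, p3, p4, p5, p6, p7, p8, p9, p10⟩ : ∃ c, A (x c true) = 0 ∧
            b (x c true) = 1 ∧ A (x c false) = 0 ∧ b (x c false) = 0 ∧
            A (x (!c) true) = 1 ∧ b (x (!c) true) = 0 ∧ A (x (!c) false) = 0 ∧
            b (x (!c) false) = 0 ∧ ∑ z ∈ (X u true ∪ X u false)ᶜ, A z = 0 ∧
            ∑ z ∈ (X u true ∪ X u false)ᶜ, b z = 0 := by
          rcases (show A (x true true) = 0 ∨ A (x true true) = 1 by omega) with h3 | h3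
          · refine ⟨true, ?_⟩
            simp only [Bool.not_true]
            omega
          · refine ⟨false, ?_⟩
            simp only [Bool.not_false]
            omega
        have hA0 := hzero A p9
        have hb0 := hzero b p10
        have hxx : ∀ t t', x c t ≠ x (!c) t' := by
          intro t t'
          cases c
          · exact (hd _ _).symm
          · exact hd _ _
        have hcases' : ∀ z, (∀ c, z ∉ X u c) ∨ (∃ t, z = x c t) ∨ ∃ t, z = x (!c) t := by
          intro z
          rcases hcases z with h | ⟨c', t, rfl⟩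
          · exact Or.inl h
          · right
            by_cases hc : c' = c
            · subst hc
              exact Or.inl ⟨t, rfl⟩
            · right
              have : c' = !c := by
                cases c <;> cases c' <;> simp at hc ⊢
              subst this
              exact ⟨t, rfl⟩
        have hAe : A = fun z => if z = x (!c) true then 1 else 0 := by
          funext z
          rcases hcases' z with h | ⟨t, rfl⟩ | ⟨t, rfl⟩
          · rw [hA0 z h, if_neg (hnX z h _ _)]
          · rw [if_neg (hxx _ _)]
            cases t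
            · exact p3
            · exact p1
          · cases t
            · rw [if_neg (hxne _).symm, p7]
            · rw [if_pos rfl, p5]
        have hbe : b = fun z => if z = x c true then 1 else 0 := by
          funext z
          rcases hcases' z with h | ⟨t, rfl⟩ | ⟨t, rfl⟩
          · rw [hb0 z h, if_neg (hnX z h _ _)]
          · cases t
            · rw [if_neg (hxne _).symm, p4]
            · rw [if_pos rfl, p2]
          · rw [if_neg (hxx _ _).symm]
            cases t
            · exact p8
            · exact p6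
        have hall : ∀ z, inl z ∈ Set.range u := by
          intro z
          rcases hcases z with h | ⟨c, t, rfl⟩
          · by_contra hcon
            have := hNZ z hcon
            rw [hA0 z h, hb0 z h] at this
            simp at this
          · exact huse c _ (hx c t)
        apply hne
        rw [hbe, hAe]
        exact h12b R T L r u hr hu i x hi c hall
  · -- one leg of each colour
    dsimp only at hsum
    have he1 : e = 1 := by omega
    subst he1
    have hb0 : ∑ x, b x = 0 := by omega
    have hb : b = fun _ => 0 := by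
      funext z
      exact (Finset.sum_eq_zero_iff.mp hb0) z (Finset.mem_univ z)
    have hb' : ∀ z, b z = 0 := fun z => by rw [hb]
    simp only [hb'] at hNZ htot
    have hA1 : ∑ x, A x = 1 := by
      obtain ⟨n, hn⟩ := hev
      simp only [mul_zero, add_zero] at htot
      omega
    obtain ⟨z0, hz0⟩ : ∃ z, A z ≠ 0 := by
      by_contra hcon
      push Not at hcon
      rw [Finset.sum_eq_zero fun z _ => hcon z] at hA1
      omega
    have hz1 : ∀ z, z ≠ z0 → A z = 0 := by
      intro z hz
      have h3 := Finset.add_sum_erase Finset.univ A (Finset.mem_univ z0)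
      have h4 : ∑ x ∈ Finset.univ.erase z0, A x = 0 := by omega
      exact (Finset.sum_eq_zero_iff.mp h4) z (Finset.mem_erase.mpr ⟨hz, Finset.mem_univ z⟩)
    have hAe : A = fun z => if z = z0 then 1 else 0 := by
      funext z
      by_cases hz : z = z0
      · subst hz
        rw [if_pos rfl]
        have := hA z
        omega
      · rw [if_neg hz, hz1 z hz]
    have h4 : ∀ c, ∃ x, X u c = {x} := fun c => Finset.card_eq_one.mp (hcard c)
    choose x hX using h4
    have h5 : ∀ c, ∃ i, u (inr (i, c)) = inl (x c) := by
      intro c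
      rw [← mem_X, hX]
      simp
    choose i hi using h5
    have hone : One u i x := by
      refine ⟨hi, ?_⟩
      intro c j hj
      rcases h : u (inr (j, c)) with z | p
      · exfalso
        have h3 : z ∈ X u c := mem_X.2 ⟨j, h⟩
        rw [hX] at h3
        simp only [Finset.mem_singleton] at h3
        apply hj
        have := hu _ _ _ h (by rw [h3]; exact hi c)
        simpa using this
      · exact ⟨p, rfl⟩
    apply hne
    rw [hb, hAe]
    refine h11 R T L r u hr hu i x hone z0 ?_
    intro z hz
    by_contra hcon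
    have := hNZ z hcon
    rw [hz1 z hz] at this
    simp at this

/-- **The dispatch**: Pixton's relations for `G` follow from the listed families. -/
theorem pix_of_fam {G : Q.Fn LL} (hTr : Q.Tr 2 9 G) (hSP : SP G) (hAS : AS G) (h0 : F0 G)
    (h11 : F11 G) (h12 : F12 G) (h12b : F12b G) (h2 : F2 G) : Q.Pix 2 9 G := by
  rw [pix_iff]
  refine ⟨hTr, ?_⟩
  intro R T L r u b A γ e hR hT hL hu hA hlt
  obtain ⟨c0, r', hr', h3⟩ := rl_nozero hTr r u b A γ e
  rw [h3]
  apply mul_eq_zero_of_right
  obtain ⟨c, u', hu', h3⟩ := H18.rl_drop_all hTr r' u b A γ e hu hA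
  rw [h3]
  apply mul_eq_zero_of_right
  have hval : ∀ y x, u' y = inl x → u y = inl x.1 := by
    intro y x h
    rw [← hu', h]
    rfl
  apply rl_of_fam hTr hSP hAS h0 h11 h12 h12b h2 _ _ _ _ _ _ hr'
  · intro y z x hy hz
    exact hu y z x.1 (hval y x hy) (hval z x hz)
  · intro x
    exact hA x.1
  · have := Fintype.ofFinite L
    refine lt_of_le_of_lt ?_ hlt
    rw [finsum_eq_sum_of_fintype, finsum_eq_sum_of_fintype]
    have h4 : ∑ x : {x // ¬ ((∀ y, u y ≠ inl x) ∧ A x = 0 ∧ b x = 0)}, A x.1 ≤ ∑ x, A x := by
      rw [← Finset.sum_image (f := fun x => A x) (g := Subtype.val)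
        (s := Finset.univ) (fun x _ y _ h => Subtype.ext h)]
      exact Finset.sum_le_sum_of_subset (Finset.subset_univ _)
    omega
  · intro z hz
    have h4 := z.2
    by_contra hcon
    push Not at hcon
    apply h4
    refine ⟨?_, hcon⟩
    intro y hy
    apply hz
    have h5 := hu' y
    rw [hy] at h5
    rcases h6 : u' y with x | p
    · rw [h6] at h5
      refine ⟨y, ?_⟩
      rw [h6]
      exact congrArg inl (Subtype.ext (inl.inj h5))
    · rw [h6] at h5
      cases h5

end Vale.Agent.P273.D14.H462
end
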