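import Vale.Agent.P273.D14.H462.EvB
import Vale.Agent.P273.D14.H462.Red

/-!
The family `F12b`, from the properties of the functional on the inserted graphs.
-/

noncomputable section
namespace Vale.Agent.P273.D14.H462
open Sum Vale.Agent.P273 Vale.Agent.P273.D14.H18 Vale.Agent.P273.D14.H118
open scoped Classical
open Alg

variable {V E L M N R T : Type}

lemma graft_up (r : R → ℕ × Multiset ℕ) (u : (T × Bool) ⊕ N → L ⊕ R × ℕ) (x : L) (G : Gr V E L) :
    (⟨r, u, fun z => if z = x then 1 else 0⟩ : Env R T L N).graft G =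
      (⟨r, u, fun _ => 0⟩ : Env R T L N).graft (up x G) := by
  apply Gr.ext'
  · rintro (v | v)
    · rw [Env.graft_dec_inl, Env.graft_dec_inl]
      unfold Env.unused
      simp only [up, inr.injEq]
      congr 2
      apply finsum_congr
      intro z
      congr 1
      funext _
      by_cases h : z = x <;> simp [h]
    · rfl
  · intro y
    rcases graft_cases y with ⟨e, s, rfl⟩ | ⟨z, rfl⟩
    · rfl
    · rw [graft_hf_lft, graft_hf_lft]
      rcases hz : u z with l | p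
      · rw [Env.usehf_inl (Q := ⟨r, u, fun z => if z = x then 1 else 0⟩) hz,
          Env.usehf_inl (Q := ⟨r, u, fun _ => 0⟩) hz]
        simp only [up, inr.injEq]
        by_cases h : l = x <;> simp [h]
      · rw [Env.usehf_inr (Q := ⟨r, u, fun z => if z = x then 1 else 0⟩) hz,
          Env.usehf_inr (Q := ⟨r, u, fun _ => 0⟩) hz]

/-- The functional on the inserted graphs. -/
def ph (G : Q.Fn N) (r : R → ℕ × Multiset ℕ) (u : (T × Bool) ⊕ N → L ⊕ R × ℕ)
    (p : Σ k m : ℕ, Gr (Fin k) (Fin m) L) : ℚ :=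
  G _ _ ((⟨r, u, fun _ => 0⟩ : Env R T L N).graft p.2.2).dec
    ((⟨r, u, fun _ => 0⟩ : Env R T L N).graft p.2.2).hf

lemma rl_up [Fintype L] (G : Q.Fn N) (r : R → ℕ × Multiset ℕ) (u : (T × Bool) ⊕ N → L ⊕ R × ℕ)
    (x : L) (A : L → ℕ) (γ e : ℕ) :
    rl G r u (fun z => if z = x then 1 else 0) A γ e = ∑ p ∈ supp γ A e,
      (wt p.2.2 γ A e / (p.1.factorial * p.2.1.factorial * 2 ^ p.2.1)) *
        ph G r u ⟨p.1, p.2.1, up x p.2.2⟩ := by
  have h := rl_eq G (⟨r, u, fun z => if z = x then 1 else 0⟩ : Env R T L N) A γ e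
  refine h.trans ?_
  apply Finset.sum_congr rfl
  intro p _
  unfold ph
  dsimp only
  rw [graft_up]

lemma rl_zero [Fintype L] (G : Q.Fn N) (r : R → ℕ × Multiset ℕ) (u : (T × Bool) ⊕ N → L ⊕ R × ℕ)
    (A : L → ℕ) (γ e : ℕ) :
    rl G r u (fun _ => 0) A γ e = ∑ p ∈ supp γ A e,
      (wt p.2.2 γ A e / (p.1.factorial * p.2.1.factorial * 2 ^ p.2.1)) * ph G r u p :=
  rl_eq G (⟨r, u, fun _ => 0⟩ : Env R T L N) A γ e

lemma std_symm [Fintype M] (A B : Bool → M) : Std B A = Std A B := by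
  ext ε
  simp only [Std, Finset.mem_filter, Finset.mem_univ, true_and]
  tauto

lemma nice2_symm [Fintype M] {A B : Bool → M} {φ : (Σ k m : ℕ, Gr (Fin k) (Fin m) M) → ℚ}
    (H : Nice2 A B φ) : Nice2 B A φ := by
  refine ⟨⟨H.iso, ?_, H.antiB, H.antiA⟩, H.v2k, H.v2x, H.v2e, ?_⟩
  · intro k m G h w
    obtain ⟨⟨i, hi⟩, h2, h3⟩ := H.sup h w
    have h4 : 0 < Nat.card {i // (G.hf (inr (A i))).1 = w} := by
      have : Nonempty {i // (G.hf (inr (A i))).1 = w} := ⟨⟨i, hi⟩⟩
      exact Nat.card_pos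
    rw [h2] at h4
    have h5 : Nonempty {j // (G.hf (inr (B j))).1 = w} := (Nat.card_pos_iff.mp h4).1
    obtain ⟨⟨j, hj⟩⟩ := h5
    exact ⟨⟨j, hj⟩, h2.symm, by rw [← h2]; exact h3⟩
  · rw [std_symm, ← H.v3]
    have h : (ex2 (B true) (A true) : M → ℕ) = ex2 (A true) (B true) := by
      funext z
      unfold ex2
      simp only [or_comm]
    rw [h]

/-- The family `F12b`, one relation. -/
theorem f12b_core [Fintype L] {G : Q.Fn LL} {r : R → ℕ × Multiset ℕ}
    {u : (T × Bool) ⊕ LL → L ⊕ R × ℕ} {x : Bool → Bool → L}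
    (hxx : ∀ i j, x true i ≠ x false j) (hx : ∀ c, x c false ≠ x c true)
    (H : Nice2 (x true) (x false) (ph G r u))
    (hLD : ∑ ε ∈ Std (x true) (x false), (ph G r u ⟨2, 2, fT4 1 0 1 0 ε⟩ +
      ph G r u ⟨2, 2, fT4 1 1 1 0 ε⟩) = 0) (c : Bool) :
    rl G r u (fun z => if z = x c true then 1 else 0) (fun z => if z = x (!c) true then 1 else 0)
      1 1 = 0 := by
  rw [rl_up]
  have h : ∑ p ∈ supp 1 (fun z => if z = x (!c) true then 1 else 0) 1,
      (wt p.2.2 1 (fun z => if z = x (!c) true then 1 else 0) 1 /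
        (p.1.factorial * p.2.1.factorial * 2 ^ p.2.1)) *
        ph G r u ⟨p.1, p.2.1, up (x c true) p.2.2⟩ =
      6 * ∑ ε ∈ Std (x c) (x (!c)), (ph G r u ⟨2, 2, fT4 1 0 1 0 ε⟩ +
        ph G r u ⟨2, 2, fT4 1 1 1 0 ε⟩) := by
    apply eval_b
    · cases c
      · exact nice2_symm H
      · exact H
    · exact hx _
    · cases c
      · exact fun i j => (hxx j i).symm
      · exact hxx
  rw [h]
  have h2 : Std (x c) (x (!c)) = Std (x true) (x false) := by
    cases c
    · exact std_symm _ _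
    · rfl
  rw [h2, hLD, mul_zero]

end Vale.Agent.P273.D14.H462
end
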