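import Vale.Agent.P273.D14.H462.GProps
import Vale.Agent.P273.D14.H599.LK
import Vale.Agent.P273.D14.H593.PixFF
import Vale.Agent.P273.D14.H17.Inst
import Vale.Agent.P273.D14.H837.FX
import Vale.Agent.P273.D14.H743.FIso
import Vale.Agent.P273.D14.H743.FLI
import Vale.Agent.P273.D14.H789.FBr
import Vale.Agent.P273.D14.H741.Final

/-!
The functional on the strata algebra that satisfies Pixton's relations and does not vanish on the
element, from the relations of genus 0 and 1.
-/

noncomputable section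
namespace Vale.Agent.P273.D14.H462
open Sum Vale.Agent.P273 Vale.Agent.P273.D14.H387
open scoped Classical

/-- The function on undecorated graphs. -/
def ff : Und := fun _ _ h => FS.f h

theorem ff_inv : ff.Inv := fun _ _ _ _ h h' p q h1 h2 h3 h4 => FS.f_iso h h' p q h1 h2 h3 h4

theorem ff_br : ff.Br := fun _ _ _ _ _ _ _ h1 h2 h3 h4 => FS.f_br h1 h2 h3 h4

theorem ff_li : H599.LI ff := fun _ _ _ _ h _ => FS.f_LI h

theorem f2_ff : F2 (G ff) := by
  intro R T L _ _ _ r u b A e _ hu hA hlt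
  exact H17.genus2 (tr_G ff_inv) (H17.br_inst ff_br) H17.sp_inst (H17.as_inst ff_inv)
    (fun i j => H599.killsLf_G ff_inv ff_li (by simp)) e R T L ⟨r, u, b⟩ A
    inferInstance inferInstance inferInstance hu hA hlt

theorem pix_of (h0 : F0 (G ff)) (h11 : F11 (G ff)) (h12 : F12 (G ff)) (h12b : F12b (G ff)) :
    Q.Pix 2 9 (G ff) :=
  pix_of_fam (tr_G ff_inv) (sp_G' ff) (as_G ff_inv) h0 h11 h12 h12b f2_ff

/-- The P side, from the four families. -/
theorem pside_of (h0 : F0 (G ff)) (h11 : F11 (G ff)) (h12 : F12 (G ff)) (h12b : F12b (G ff)) :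
    ∃ s : Q.Fn (Fin 7 × Bool), Q.Pix 2 9 s ∧ H741.onX s ≠ 0 :=
  ⟨FF (G ff), pix_FG ff_br (pix_of h0 h11 h12 h12b), H837.FX_ne ff fun _ _ _ => rfl⟩

end Vale.Agent.P273.D14.H462
end
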