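import Vale.Agent.P273.D14.Glue
import Vale.Agent.P273.D14.H18.EvalOne

/-!
The numbers in a relation that does not vanish term by term on a functional with the support
property.
-/

noncomputable section
namespace Vale.Agent.P273.D14.H462
open Sum Vale.Agent.P273 Vale.Agent.P273.C1.R3B Vale.Agent.P273.C1.R1B
open scoped Classical

variable {V E L N R T : Type}

/-! ### degree at a vertex of a graft -/

lemma unused_sum' [Fintype L] (W : Env R T L N) (G : Gr V E L) (v : V) :
    (W.unused G v).sum = ∑ x, W.un (fun x => if (G.hf (inr x)).1 = v then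
      (G.hf (inr x)).2 + W.b x else 0) x := by
  rw [Env.unused_sum, finsum_eq_sum_of_fintype]
  apply Finset.sum_congr rfl
  intro x _
  unfold Env.un
  by_cases h1 : inl x ∈ Set.range W.use
  · rw [if_neg (fun h => h.1 h1), if_neg (not_not.2 h1)]
  · rw [if_pos h1]
    by_cases h2 : (G.hf (inr x)).1 = v
    · rw [if_pos ⟨h1, h2⟩]
      exact (if_pos h2).symm
    · rw [if_neg (fun h => h2 h.2)]
      exact (if_neg h2).symm

lemma degAt_graft_inl [Finite E] [Finite T] [Finite L] [Finite N] (W : Env R T L N)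
    (hW : ∀ y z x, W.use y = inl x → W.use z = inl x → y = z) (G : Gr V E L) (v : V) :
    (W.graft G).degAt (inl v) = G.degAt v + ∑ᶠ x, if (G.hf (inr x)).1 = v then W.b x else 0 := by
  have := Fintype.ofFinite E
  have := Fintype.ofFinite T
  have := Fintype.ofFinite L
  have := Fintype.ofFinite N
  rw [degAt_eq, degAt_eq, psi_eq_finsum, psi_eq_finsum, Env.graft_dec_inl, Multiset.sum_add,
    unused_sum', finsum_eq_sum_of_fintype, finsum_eq_sum_of_fintype, finsum_eq_sum_of_fintype,
    Fintype.sum_sum_type (f := fun y => if (G.hf y).1 = v then (G.hf y).2 else 0)]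
  have e3 : ∑ y, (if ((W.graft G).hf y).1 = inl v then ((W.graft G).hf y).2 else 0) =
      ∑ y : E × Bool, (if (G.hf (inl y)).1 = v then (G.hf (inl y)).2 else 0) +
      ∑ z, if (W.usehf G z).1 = inl v then (W.usehf G z).2 else 0 := by
    rw [Fintype.sum_sum_type, ← Equiv.sum_comp (Equiv.sumProdDistrib E T Bool).symm,
      Fintype.sum_sum_type, Fintype.sum_sum_type
        (f := fun z => if (W.usehf G z).1 = inl v then (W.usehf G z).2 else 0), add_assoc]
    congr 1
    apply Finset.sum_congr rfl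
    intro y _
    show (if (inl (G.hf (inl y)).1 : V ⊕ R) = inl v then (G.hf (inl y)).2 else 0) = _
    simp only [inl.injEq]
  have e4 : ∑ z, (if (W.usehf G z).1 = inl v then (W.usehf G z).2 else 0) =
      ∑ x, W.us (fun x => if (G.hf (inr x)).1 = v then (G.hf (inr x)).2 + W.b x else 0) x := by
    rw [← sum_use W hW (fun x => if (G.hf (inr x)).1 = v then (G.hf (inr x)).2 + W.b x else 0)]
    apply Finset.sum_congr rfl
    intro z _
    rcases hz : W.use z with x | p
    · rw [Env.usehf_inl hz]
      simp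
    · rw [Env.usehf_inr hz]
      simp
  have e5 : ∑ x, W.un (fun x => if (G.hf (inr x)).1 = v then (G.hf (inr x)).2 + W.b x else 0) x +
      ∑ x, W.us (fun x => if (G.hf (inr x)).1 = v then (G.hf (inr x)).2 + W.b x else 0) x =
      ∑ x, (if (G.hf (inr x)).1 = v then (G.hf (inr x)).2 else 0) +
      ∑ x, (if (G.hf (inr x)).1 = v then W.b x else 0) := by
    rw [← Finset.sum_add_distrib, ← Finset.sum_add_distrib]
    apply Finset.sum_congr rfl
    intro x _
    rw [us_add_un]
    split_ifs <;> simp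
  have e6 : ∀ F : ℕ, F = ∑ y, (if ((W.graft G).hf y).1 = inl v then ((W.graft G).hf y).2 else 0) →
      (G.dec v).2.sum + ∑ x, W.un (fun x => if (G.hf (inr x)).1 = v then
        (G.hf (inr x)).2 + W.b x else 0) x + F =
      (G.dec v).2.sum + (∑ y : E × Bool, (if (G.hf (inl y)).1 = v then (G.hf (inl y)).2 else 0) +
        ∑ x, (if (G.hf (inr x)).1 = v then (G.hf (inr x)).2 else 0)) +
      ∑ x, (if (G.hf (inr x)).1 = v then W.b x else 0) := by
    intro F hF
    rw [hF, e3, e4]
    omega
  apply e6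
  apply Finset.sum_congr rfl
  intro y _
  congr

/-- The sum over the inner vertices. -/
lemma sum_degAt_graft_inl [Fintype V] [Finite E] [Finite T] [Finite L] [Finite N]
    (W : Env R T L N) (hW : ∀ y z x, W.use y = inl x → W.use z = inl x → y = z) (G : Gr V E L) :
    ∑ v, (W.graft G).degAt (inl v) + Nat.card E = G.deg + ∑ᶠ x, W.b x := by
  have := Fintype.ofFinite L
  rw [Finset.sum_congr rfl fun v _ => degAt_graft_inl W hW G v, Finset.sum_add_distrib,
    ← sum_degAt G]
  have : ∑ v, ∑ᶠ x, (if (G.hf (inr x)).1 = v then W.b x else 0) = ∑ᶠ x, W.b x := by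
    simp_rw [finsum_eq_sum_of_fintype]
    rw [Finset.sum_comm]
    apply Finset.sum_congr rfl
    intro x _
    simp only [Finset.sum_ite_eq, Finset.mem_univ, ↓reduceIte]
  rw [this]
  omega

/-! ### the genus of the vertex -/

/-- the number of vertices of a connected graph -/
lemma conn_card' [Finite V] [Finite E] [Nonempty V] (h : E × Bool → V)
    (hc : ∀ s : Set V, (∀ e, h (e, true) ∈ s ↔ h (e, false) ∈ s) → s = ∅ ∨ s = Set.univ) :
    Nat.card V ≤ Nat.card E + 1 := by
  have := Fintype.ofFinite V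
  let G : Gr V E Empty := ⟨fun _ => (2, 0), Sum.elim (fun y => (h y, 0)) Empty.elim⟩
  have hst : G.Stab (Nat.card V + Nat.card E + 1) := by
    refine ⟨inferInstance, hc, ?_, fun v => by show 2 < 2 * 2 + _; omega⟩
    rw [finsum_eq_sum_of_fintype]
    simp only [G, Finset.sum_const, Finset.card_univ, smul_eq_mul, Nat.card_eq_fintype_card]
    omega
  exact hst.conn_card

/-- contraction of the inner graph -/
lemma card_R_le [Finite R] [Finite T] [Nonempty V] (W : Env R T L N) (G : Gr V E L)
    (hc : ∀ s : Set (V ⊕ R), (∀ e, ((W.graft G).hf (inl (e, true))).1 ∈ s ↔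
      ((W.graft G).hf (inl (e, false))).1 ∈ s) → s = ∅ ∨ s = Set.univ) :
    Nat.card R ≤ Nat.card T := by
  have h1 := conn_card' (V := Option R) (E := T)
    (fun y => (W.use (inl y)).elim (fun _ => none) (fun p => some p.1)) (by
      intro s hs
      let φ : V ⊕ R → Option R := Sum.elim (fun _ => none) some
      have h2 := hc (φ ⁻¹' s) (by
        rintro (e | t)
        · show none ∈ s ↔ none ∈ s
          exact Iff.rfl
        · have h3 := hs t
          rw [Env.graft_hf_inr, Env.graft_hf_inr]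
          have h4 : ∀ c, (φ (W.usehf G (inl (t, c))).1) =
              (W.use (inl (t, c))).elim (fun _ => none) (fun p => some p.1) := by
            intro c
            rcases hz : W.use (inl (t, c)) with x | p
            · rw [Env.usehf_inl hz]
              rfl
            · rw [Env.usehf_inr hz]
              rfl
          rw [Set.mem_preimage, Set.mem_preimage, h4, h4]
          exact h3)
      have hsurj : φ.Surjective := by
        rintro (_ | r)
        · obtain ⟨v⟩ := ‹Nonempty V›
          exact ⟨inl v, rfl⟩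
        · exact ⟨inr r, rfl⟩
      rcases h2 with h2 | h2
      · left
        ext z
        obtain ⟨w, rfl⟩ := hsurj z
        have : w ∈ φ ⁻¹' s ↔ w ∈ (∅ : Set (V ⊕ R)) := by rw [h2]
        simpa using this
      · right
        ext z
        obtain ⟨w, rfl⟩ := hsurj z
        have : w ∈ φ ⁻¹' s ↔ w ∈ (Set.univ : Set (V ⊕ R)) := by rw [h2]
        simpa using this)
  have h2 : Nat.card (Option R) = Nat.card R + 1 := Finite.card_option
  omega

/-! ### the support property -/

/-- The number of legs of the colour `c` at `v`. -/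
def nl (f : (E × Bool) ⊕ (Fin 8 × Bool) → V × ℕ) (c : Bool) (v : V) : ℕ :=
  Nat.card {i : Fin 8 // (f (inr (i, c))).1 = v}

/-- The support property: where the functional does not vanish, each vertex has the same number
`k ≥ 1` of legs of both colours, its genus is at most 1, and the degree of its decoration is
`k - 1` plus the genus. -/
def SP (G : Q.Fn (Fin 8 × Bool)) : Prop :=
  ∀ (V E : Type) (a : V → ℕ × Multiset ℕ) (f : (E × Bool) ⊕ (Fin 8 × Bool) → V × ℕ),
    G V E a f ≠ 0 → ∀ v, nl f true v = nl f false v ∧ 1 ≤ nl f true v ∧ (a v).1 ≤ 1 ∧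
      (a v).2.sum + ∑ᶠ (y) (_ : (f y).1 = v), (f y).2 + 1 = nl f true v + (a v).1

/-- The legs of the colour `c` at the place of the relation. -/
def Ps (u : (T × Bool) ⊕ (Fin 8 × Bool) → L ⊕ R × ℕ) (c : Bool) : Set (Fin 8) :=
  {i | ∃ x, u (inr (i, c)) = inl x}

lemma sum_nl_graft [Fintype V] (W : Env R T L (Fin 8 × Bool)) (G : Gr V E L) (c : Bool) :
    ∑ v, nl (W.graft G).hf c (inl v) = Nat.card (Ps W.use c) := by
  have h1 : ∀ v, nl (W.graft G).hf c (inl v) =
      ∑ i : Fin 8, if (W.usehf G (inr (i, c))).1 = inl v then 1 else 0 := by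
    intro v
    unfold nl
    rw [Nat.card_eq_fintype_card, Fintype.card_subtype, Finset.card_filter]
    rfl
  have h2 : Nat.card (Ps W.use c) = ∑ i : Fin 8, if i ∈ Ps W.use c then 1 else 0 := by
    rw [Nat.card_eq_fintype_card, Fintype.card_subtype, Finset.card_filter]
  rw [Finset.sum_congr rfl fun v _ => h1 v, Finset.sum_comm, h2]
  apply Finset.sum_congr rfl
  intro i _
  rcases hz : W.use (inr (i, c)) with x | p
  · rw [if_pos ⟨x, hz⟩, Env.usehf_inl hz]
    simp
  · rw [if_neg, Env.usehf_inr hz]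
    · simp
    · rintro ⟨x, hx⟩
      rw [hz] at hx
      simp at hx

/-- The numbers in a relation that does not vanish. -/
theorem counts {G : Q.Fn (Fin 8 × Bool)} (hTr : Q.Tr 2 9 G) (hSP : SP G) [Finite R] [Finite T]
    [Finite L] (W : Env R T L (Fin 8 × Bool))
    (hW : ∀ y z x, W.use y = inl x → W.use z = inl x → y = z) (A : L → ℕ) (γ e : ℕ)
    (hne : rl G W.dec W.use W.b A γ e ≠ 0) :
    ∃ K, 1 ≤ K ∧ Nat.card (Ps W.use true) = K ∧ Nat.card (Ps W.use false) = K ∧
      e + ∑ᶠ x, W.b x + 1 = K + γ ∧ γ ≤ 2 ∧ Even (γ + 1 + e + ∑ᶠ x, A x) := by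
  have := Fintype.ofFinite L
  rw [rl_eq] at hne
  obtain ⟨p, hp, hne⟩ := Finset.exists_ne_zero_of_sum_ne_zero hne
  have hwt : wt p.2.2 γ A e ≠ 0 := by
    intro h
    rw [h, zero_div, zero_mul] at hne
    exact hne rfl
  have hG : G _ _ (W.graft p.2.2).dec (W.graft p.2.2).hf ≠ 0 := right_ne_zero_of_mul hne
  obtain ⟨hst, hdeg, -⟩ := wt_ne_zero hwt
  have hv := not_imp_comm.mp (hTr.1 _ _ _ _) hG
  rw [cValid_iff] at hv
  obtain ⟨⟨-, -, hvst, -⟩, -⟩ := hv
  have hsp := fun v => hSP _ _ _ _ hG (inl v)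
  have hodd : Even (γ + 1 + e + ∑ x, A x) := by
    by_contra hcon
    exact hwt (H18.wt_odd _ hcon)
  have hne' : Nonempty (Fin p.1) := hst.1
  refine ⟨Nat.card (Ps W.use true), ?_, rfl, ?_, ?_, ?_, ?_⟩
  · rw [← sum_nl_graft W p.2.2 true]
    obtain ⟨v⟩ := hne'
    exact (hsp v).2.1.trans (Finset.single_le_sum
      (f := fun v => nl (W.graft p.2.2).hf true (inl v)) (fun _ _ => Nat.zero_le _)
      (Finset.mem_univ v))
  · rw [← sum_nl_graft W p.2.2 true, ← sum_nl_graft W p.2.2 false]
    exact Finset.sum_congr rfl fun v _ => (hsp v).1.symm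
  · have h1 := sum_degAt_graft_inl W hW p.2.2
    have h2 : ∑ v, (W.graft p.2.2).degAt (inl v) + Nat.card (Fin p.1) =
        Nat.card (Ps W.use true) + ∑ᶠ v, (p.2.2.dec v).1 := by
      rw [finsum_eq_sum_of_fintype, ← sum_nl_graft W p.2.2 true, ← Finset.sum_add_distrib,
        Nat.card_eq_fintype_card, ← Finset.card_univ, Finset.card_eq_sum_ones,
        ← Finset.sum_add_distrib]
      apply Finset.sum_congr rfl
      intro v _
      rw [degAt_eq]
      exact (hsp v).2.2.2
    have h3 := hst.2.2.1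
    rw [hdeg] at h1
    omega
  · have h1 := card_R_le W p.2.2 hvst.2.1
    have h2 := hst.2.2.1
    have h3 := hvst.2.2.1
    have := Fintype.ofFinite R
    rw [finsum_eq_sum_of_fintype] at h2 h3
    rw [Fintype.sum_sum_type, Nat.card_sum, Nat.card_sum] at h3
    have h4 : ∑ v, (((⟨(W.graft p.2.2).dec, (W.graft p.2.2).hf⟩ : Gr (Fin p.1 ⊕ R)
      (Fin p.2.1 ⊕ T) (Fin 8 × Bool)).dec (inl v))).1 = ∑ v, (p.2.2.dec v).1 := rfl
    rw [h4] at h3
    omega
  · rw [finsum_eq_sum_of_fintype]
    exact hodd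

end Vale.Agent.P273.D14.H462
end
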