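import Vale.Agent.P273.D14.H118.Ev2

/-!
The relation of degree one in genus one at a vertex with two legs of each colour, times psi at one
of these legs.
-/

noncomputable section
namespace Vale.Agent.P273.D14.H462
open Sum Vale.Agent.P273 Vale.Agent.P273.D14.H18 Vale.Agent.P273.D14.H118
open scoped Classical
open Alg

variable {V E M : Type}

/-- Raise the exponent of the leg `x`. -/
def up (x : M) (G : Gr V E M) : Gr V E M :=
  ⟨G.dec, fun y => ((G.hf y).1, if y = inr x then (G.hf y).2 + 1 else (G.hf y).2)⟩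

/-- the vertex of genus one is `1` iff `h = 1` -/
def tw (ε : M → Bool) : M → Fin 2 := fun x => if ε x then 1 else 0

lemma up_pt2G (x : M) (ε : M → Bool) :
    up x (pt2G 1 1 ε true) = fT3 1 1 0 (tw ε) (some (inr x)) := by
  apply Gr.ext'
  · intro v
    fin_cases v <;> simp [up, pt2G, fT3]
  · rintro (⟨e, s⟩ | y)
    · cases s <;> simp [up, pt2G, fT3]
    · simp only [up, pt2G, fT3, tw, Sum.elim_inr, inr.injEq, zero_add]
      by_cases h : y = x
      · subst h; simp
      · simp [h, Ne.symm h]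

lemma up_pt2G' (x : M) (ε : M → Bool) :
    up x (pt2G 1 0 ε true) = fT3 0 1 0 (tw ε) (some (inr x)) := by
  apply Gr.ext'
  · intro v
    fin_cases v <;> simp [up, pt2G, fT3]
  · rintro (⟨e, s⟩ | y)
    · cases s <;> simp [up, pt2G, fT3]
    · simp only [up, pt2G, fT3, tw, Sum.elim_inr, inr.injEq, zero_add]
      by_cases h : y = x
      · subst h; simp
      · simp [h, Ne.symm h]

lemma up_pt1 (x y : M) (hxy : x ≠ y) :
    up x (pt1 1 0 (fun z => if z = y then 1 else 0)) = pt1 1 0 (ex2 x y) := by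
  apply Gr.ext'
  · intro v; rfl
  · rintro (⟨e, s⟩ | z)
    · exact e.elim0
    · simp only [up, pt1, ex2, Sum.elim_inr, inr.injEq]
      by_cases h : z = x
      · subst h; simp [hxy]
      · simp [h]

lemma up_iso {V' E' : Type} (x : M) {G : Gr V E M} {G' : Gr V' E' M} (h : G.Iso G') :
    (up x G).Iso (up x G') := by
  obtain ⟨p, q, h1, h2, h3, h4, h5⟩ := h
  refine ⟨p, q, h1, h2, h3, h4, ?_⟩
  intro y
  have h6 : (y.map q id = (inr x : (E' × Bool) ⊕ M)) ↔ y = inr x := by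
    rcases y with y | y <;> simp
  show ((G'.hf (y.map q id)).1, if y.map q id = inr x then (G'.hf (y.map q id)).2 + 1 else
    (G'.hf (y.map q id)).2) = (p (G.hf y).1, if y = inr x then (G.hf y).2 + 1 else (G.hf y).2)
  rw [h5]
  simp only [h6]
  rfl

lemma sum_tw [Fintype M] (F : (M → Fin 2) → ℚ) : ∑ ε : M → Bool, F (tw ε) = ∑ ε, F ε := by
  refine Fintype.sum_bijective tw ⟨?_, ?_⟩ _ _ fun _ => rfl
  · intro ε ε' h
    funext x
    have := congrFun h x
    unfold tw at this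
    cases h1 : ε x <;> cases h2 : ε' x <;> simp [h1, h2] at this ⊢
  · intro ε
    refine ⟨fun x => decide (ε x = 1), ?_⟩
    funext x
    unfold tw
    have : ∀ p : Fin 2, (if decide (p = 1) = true then (1 : Fin 2) else 0) = p := by decide
    exact this _

variable [Fintype M] {A B : Bool → M} {φ : (Σ k m : ℕ, Gr (Fin k) (Fin m) M) → ℚ}

/-- The four places of the legs. -/
lemma place4 (hAB : ∀ i j, A i ≠ B j) (g : (M → Fin 2) → ℚ)
    (hgA : ∀ ε : M → Fin 2, ε (A false) = ε (A true) → g ε = 0)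
    (hgB : ∀ ε : M → Fin 2, ε (B false) = ε (B true) → g ε = 0) :
    ∑ ε, g ε = ∑ ε ∈ Std A B, (g ε + g (ε ∘ Equiv.swap (A false) (A true)) +
      (g (ε ∘ Equiv.swap (B false) (B true)) +
        g (ε ∘ Equiv.swap (B false) (B true) ∘ Equiv.swap (A false) (A true)))) := by
  have hBA : ∀ (ε : M → Fin 2) j, (ε ∘ Equiv.swap (A false) (A true)) (B j) = ε (B j) := by
    intro ε j
    simp only [Function.comp_apply]
    rw [Equiv.swap_apply_of_ne_of_ne (hAB _ _).symm (hAB _ _).symm]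
  have hAB' : ∀ (ε : M → Fin 2) j, (ε ∘ Equiv.swap (B false) (B true)) (A j) = ε (A j) := by
    intro ε j
    simp only [Function.comp_apply]
    rw [Equiv.swap_apply_of_ne_of_ne (hAB _ _) (hAB _ _)]
  rw [place_aux (A := A) g hgA]
  have h1 : ∑ ε ∈ Finset.univ.filter (fun ε : M → Fin 2 => ε (A false) = 1 ∧ ε (A true) = 0),
      (g ε + g (ε ∘ Equiv.swap (A false) (A true))) =
      ∑ ε : M → Fin 2, (if ε (A false) = 1 ∧ ε (A true) = 0 then
        (g ε + g (ε ∘ Equiv.swap (A false) (A true))) else 0) := by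
    rw [Finset.sum_filter]
  rw [h1, place_aux (A := B)]
  swap
  · intro ε hε
    rw [hgB ε hε, hgB _ (by rw [hBA, hBA]; exact hε)]
    simp
  unfold Std
  rw [Finset.sum_filter, Finset.sum_filter]
  apply Finset.sum_congr rfl
  intro ε _
  rw [hAB', hAB']
  by_cases hb : ε (B false) = 1 ∧ ε (B true) = 0
  · rw [if_pos hb]
    by_cases ha : ε (A false) = 1 ∧ ε (A true) = 0
    · rw [if_pos ha, if_pos ha, if_pos ⟨ha.1, ha.2, hb.1, hb.2⟩]
      rfl
    · rw [if_neg ha, if_neg ha, if_neg (fun h => ha ⟨h.1, h.2.1⟩), add_zero]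
  · rw [if_neg hb, if_neg (fun h => hb ⟨h.2.2.1, h.2.2.2⟩)]

/-- the summand -/
def g1 (A B : Bool → M) (φ : (Σ k m : ℕ, Gr (Fin k) (Fin m) M) → ℚ) (ε : M → Fin 2) : ℚ :=
  if ε (A true) = 1 then (if ε (B true) = 1 then 30 else -42) *
    (1 / 24 * φ ⟨2, 2, fT4 1 1 1 0 ε⟩) else 0

lemma two_le (hAB : ∀ i j, A i ≠ B j) (ε : M → Bool) (c : Bool) (w : Fin 2)
    (hw : ∀ x, tw ε x = w ↔ ε x = c)
    (hA1 : Nat.card {i // tw ε (A i) = w} = 1) (hB1 : Nat.card {j // tw ε (B j) = w} = 1) :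
    1 < (Finset.univ.filter (fun x => ε x = c)).card := by
  have h1 : Nonempty {i // tw ε (A i) = w} := by
    by_contra hcon
    rw [not_nonempty_iff] at hcon
    rw [Nat.card_of_isEmpty] at hA1
    exact absurd hA1 (by norm_num)
  have h2 : Nonempty {i // tw ε (B i) = w} := by
    by_contra hcon
    rw [not_nonempty_iff] at hcon
    rw [Nat.card_of_isEmpty] at hB1
    exact absurd hB1 (by norm_num)
  obtain ⟨i, hi⟩ := h1
  obtain ⟨j, hj⟩ := h2
  rw [Finset.one_lt_card]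
  refine ⟨A i, ?_, B j, ?_, hAB i j⟩
  · simpa using (hw _).1 hi
  · simpa using (hw _).1 hj

omit [Fintype M] in
lemma tw_one (ε : M → Bool) (x : M) : tw ε x = 1 ↔ ε x = true := by
  unfold tw
  cases ε x <;> simp

omit [Fintype M] in
lemma tw_zero (ε : M → Bool) (x : M) : tw ε x = 0 ↔ ε x = false := by
  unfold tw
  cases ε x <;> simp

omit [Fintype M] in
lemma one_eq (H : Nice A B φ) {m : ℕ} {G : Gr (Fin 2) (Fin m) M} (hφ : φ ⟨2, m, G⟩ ≠ 0)
    {ε : M → Bool} (hε : ∀ x, (G.hf (inr x)).1 = tw ε x) (w : Fin 2) :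
    Nat.card {i // tw ε (A i) = w} = 1 ∧ Nat.card {j // tw ε (B j) = w} = 1 := by
  obtain ⟨h1, h2, -⟩ := H.one hφ w
  simp only [hε] at h1 h2
  exact ⟨h1, h2⟩

lemma sum_ind (ε : M → Bool) (y : M) :
    ∑ x, (if ε x = true then (if x = y then 1 else 0) else 0) = if ε y = true then 1 else 0 := by
  rw [Finset.sum_eq_single y]
  · simp
  · intro x _ hx
    rw [if_neg hx]
    simp
  · intro h
    exact absurd (Finset.mem_univ _) h

lemma term1 (H : Nice2 A B φ) (hAB : ∀ i j, A i ≠ B j) (ε : M → Bool) :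
    ckG 1 1 (fun z => if z = B true then 1 else 0) ε 30 (-42) *
      φ ⟨2, 1, up (A true) (pt2G 1 1 ε true)⟩ = g1 A B φ (tw ε) := by
  rw [up_pt2G]
  unfold g1
  by_cases hx : tw ε (A true) = 1
  · rw [if_pos hx, ← H.v2x (by decide) (tw ε) (A true) hx]
    apply mul_eq_of_ne
    intro hφ
    obtain ⟨h1, h2⟩ := one_eq H.toNice hφ (ε := ε) (fun x => rfl) 0
    have h3 := two_le hAB ε false 0 (tw_zero ε) h1 h2
    have hst : StG 1 1 ε := ⟨by omega, by omega⟩
    unfold ckG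
    rw [if_pos hst, sum_ind]
    by_cases hy : ε (B true) = true
    · rw [if_pos hy, if_pos (by decide), if_pos ((tw_one _ _).2 hy)]
    · rw [if_neg hy, if_neg (by decide), if_neg (fun h => hy ((tw_one _ _).1 h))]
  · rw [if_neg hx]
    have hφ : φ ⟨2, 1, fT3 1 1 0 (tw ε) (some (inr (A true)))⟩ = 0 := by
      apply H.dec_zero (inr (A true))
      · simp [fT3, hx]
      · simp [fT3]
    rw [hφ, mul_zero]

lemma term0 (H : Nice2 A B φ) (hAB : ∀ i j, A i ≠ B j) (ε : M → Bool) :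
    ckG 1 0 (fun z => if z = B true then 1 else 0) ε 30 (-42) *
      φ ⟨2, 1, up (A true) (pt2G 1 0 ε true)⟩ = g1 A B φ (fl ∘ tw ε) := by
  rw [up_pt2G', H.fl3]
  unfold g1
  have hfl : ∀ x, (fl ∘ tw ε) x = 1 ↔ ε x = false := by
    intro x
    rw [← tw_zero]
    simp only [Function.comp_apply]
    have : ∀ w : Fin 2, fl w = 1 ↔ w = 0 := by decide
    exact this _
  have hfl0 : ∀ x, (fl ∘ tw ε) x = 0 ↔ ε x = true := by
    intro x
    rw [← tw_one]
    simp only [Function.comp_apply]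
    have : ∀ w : Fin 2, fl w = 0 ↔ w = 1 := by decide
    exact this _
  by_cases hx : (fl ∘ tw ε) (A true) = 1
  · rw [if_pos hx, ← H.L4 (e3 := 0) (e4 := 1) (fl ∘ tw ε) (by decide),
      ← H.v2x (by decide) (fl ∘ tw ε) (A true) hx]
    apply mul_eq_of_ne
    intro hφ
    have hφ' : φ ⟨2, 1, fT3 0 1 0 (tw ε) (some (inr (A true)))⟩ ≠ 0 := by
      rw [H.fl3]
      exact hφ
    obtain ⟨h1, h2⟩ := one_eq H.toNice hφ' (ε := ε) (fun x => rfl) 1
    have h3 := two_le hAB ε true 1 (tw_one ε) h1 h2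
    have hst : StG 1 0 ε := ⟨by omega, by omega⟩
    unfold ckG
    rw [if_pos hst, sum_ind]
    by_cases hy : ε (B true) = true
    · rw [if_pos hy, if_neg (by decide), if_neg]
      rw [hfl, hy]
      decide
    · rw [if_neg hy, if_pos (by decide), if_pos]
      rw [hfl]
      simpa using hy
  · rw [if_neg hx]
    have hφ : φ ⟨2, 1, fT3 (fl 0) (fl 1) (fl 0) (fl ∘ tw ε) (some (inr (A true)))⟩ = 0 := by
      apply H.dec_zero (inr (A true))
      · have : (fl ∘ tw ε) (A true) ≠ fl 0 := hx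
        simp [fT3] at this ⊢
        exact this
      · simp [fT3]
    rw [hφ, mul_zero]

lemma psiA (H : Nice2 A B φ) (ε : M → Fin 2) :
    φ ⟨2, 2, fT4 1 1 1 0 (ε ∘ Equiv.swap (A false) (A true))⟩ = - φ ⟨2, 2, fT4 1 1 1 0 ε⟩ := by
  rw [← swp_fT4, H.antiA]

lemma psiB (H : Nice2 A B φ) (ε : M → Fin 2) :
    φ ⟨2, 2, fT4 1 1 1 0 (ε ∘ Equiv.swap (B false) (B true))⟩ = - φ ⟨2, 2, fT4 1 1 1 0 ε⟩ := by
  rw [← swp_fT4, H.antiB]

lemma sum_g1 (H : Nice2 A B φ) (hAB : ∀ i j, A i ≠ B j) :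
    ∑ ε, g1 A B φ ε = 3 * ∑ ε ∈ Std A B, φ ⟨2, 2, fT4 1 1 1 0 ε⟩ := by
  rw [place4 hAB, Finset.mul_sum]
  · apply Finset.sum_congr rfl
    intro ε hε
    simp only [Std, Finset.mem_filter, Finset.mem_univ, true_and] at hε
    obtain ⟨h1, h2, h3, h4⟩ := hε
    have e1 : g1 A B φ ε = 0 := by
      unfold g1
      rw [if_neg]
      rw [h2]
      decide
    have e3 : g1 A B φ (ε ∘ Equiv.swap (B false) (B true)) = 0 := by
      unfold g1
      rw [if_neg]
      simp only [Function.comp_apply]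
      rw [Equiv.swap_apply_of_ne_of_ne (hAB _ _) (hAB _ _), h2]
      decide
    have e2 : g1 A B φ (ε ∘ Equiv.swap (A false) (A true)) =
        42 * (1 / 24 * φ ⟨2, 2, fT4 1 1 1 0 ε⟩) := by
      unfold g1
      rw [if_pos, if_neg, psiA H]
      · ring
      · simp only [Function.comp_apply]
        rw [Equiv.swap_apply_of_ne_of_ne (hAB _ _).symm (hAB _ _).symm, h4]
        decide
      · simp only [Function.comp_apply, Equiv.swap_apply_right, h1]
    have e4 : g1 A B φ (ε ∘ Equiv.swap (B false) (B true) ∘ Equiv.swap (A false) (A true)) =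
        30 * (1 / 24 * φ ⟨2, 2, fT4 1 1 1 0 ε⟩) := by
      rw [← Function.comp_assoc]
      unfold g1
      rw [if_pos, if_pos, psiA H, psiB H]
      · ring
      · simp only [Function.comp_apply]
        rw [Equiv.swap_apply_of_ne_of_ne (hAB _ _).symm (hAB _ _).symm, Equiv.swap_apply_right, h3]
      · simp only [Function.comp_apply, Equiv.swap_apply_right]
        rw [Equiv.swap_apply_of_ne_of_ne (hAB _ _) (hAB _ _), h1]
    rw [e1, e2, e3, e4]
    ring
  · intro ε hε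
    have h1 := psiA H ε
    rw [comp_swap_eq hε] at h1
    have h0 : φ ⟨2, 2, fT4 1 1 1 0 ε⟩ = 0 := by linarith
    unfold g1
    rw [h0]
    simp
  · intro ε hε
    have h1 := psiB H ε
    rw [comp_swap_eq hε] at h1
    have h0 : φ ⟨2, 2, fT4 1 1 1 0 ε⟩ = 0 := by linarith
    unfold g1
    rw [h0]
    simp

/-- **Evaluation**: `ψ · R^1_1` with `A = 1` at `B true` and the factor `ψ` at `A true`. -/
theorem eval_b (H : Nice2 A B φ) (hB : B false ≠ B true)
    (hAB : ∀ i j, A i ≠ B j) :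
    ∑ p ∈ supp 1 (fun z => if z = B true then 1 else 0) 1,
      (wt p.2.2 1 (fun z => if z = B true then 1 else 0) 1 /
        (p.1.factorial * p.2.1.factorial * 2 ^ p.2.1)) * φ ⟨p.1, p.2.1, up (A true) p.2.2⟩ =
      6 * ∑ ε ∈ Std A B, (φ ⟨2, 2, fT4 1 0 1 0 ε⟩ + φ ⟨2, 2, fT4 1 1 1 0 ε⟩) := by
  have hsum : ∑ z : M, (if z = B true then 1 else 0) = 1 := by simp
  have hneB : ∀ {k m : ℕ} {G : Gr (Fin k) (Fin m) M},
      G.hf (inr (B false)) = G.hf (inr (B true)) → φ ⟨k, m, G⟩ = 0 := by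
    intro k m G h
    by_contra hφ
    exact H.neB hφ h
  rw [eval_one' (by
      have : 1 < Fintype.card M := Fintype.one_lt_card_iff.mpr ⟨_, _, hB⟩
      omega) (by rw [hsum]; decide) (by intro x; split_ifs <;> omega)
    (fun p => φ ⟨p.1, p.2.1, up (A true) p.2.2⟩)]
  · have t1 : φ ⟨1, 0, up (A true) (pt1 1 {1} (fun _ => 0))⟩ = 0 := by
      apply hneB
      simp [up, pt1, (hAB true false).symm, (hAB true true).symm]
    have t3 : φ ⟨1, 1, up (A true) (lpG 1 M)⟩ = 0 := by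
      apply hneB
      simp [up, lpG, (hAB true false).symm, (hAB true true).symm]
    have t2 : ∑ x, (if (if x = B true then 1 else 0) = 0 then (-60 : ℚ) else 84) *
        φ ⟨1, 0, up (A true) (pt1 1 0 (fun y => if y = x then 1 else 0))⟩ =
        144 * φ ⟨1, 0, pt1 1 0 (ex2 (A true) (B true))⟩ := by
      rw [← Finset.add_sum_erase _ _ (Finset.mem_univ (B true)),
        ← Finset.add_sum_erase _ _ (Finset.mem_erase.mpr ⟨hB, Finset.mem_univ (B false)⟩),
        Finset.sum_eq_zero, up_pt1 _ _ (hAB _ _), up_pt1 _ _ (hAB _ _), ← ex2_swapB hAB, H.antiB]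
      · simp only [if_true, if_neg hB, one_ne_zero, if_false]
        ring
      · intro x hx
        simp only [Finset.mem_erase, Finset.mem_univ, and_true] at hx
        rw [hneB, mul_zero]
        simp [up, pt1, (hAB true false).symm, (hAB true true).symm, hx.1.symm, hx.2.symm]
    have t4 : ∑ h : Fin (1 + 1), ∑ ε : M → Bool,
        ckG 1 h (fun z => if z = B true then 1 else 0) ε 30 (-42) *
        φ ⟨2, 1, up (A true) (pt2G 1 h ε true)⟩ =
        6 * ∑ ε ∈ Std A B, φ ⟨2, 2, fT4 1 1 1 0 ε⟩ := by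
      rw [Fin.sum_univ_two]
      have e1 : ∑ ε : M → Bool, ckG 1 ((1 : Fin 2) : ℕ) (fun z => if z = B true then 1 else 0) ε
          30 (-42) * φ ⟨2, 1, up (A true) (pt2G 1 ((1 : Fin 2) : ℕ) ε true)⟩ =
          3 * ∑ ε ∈ Std A B, φ ⟨2, 2, fT4 1 1 1 0 ε⟩ := by
        rw [← sum_g1 H hAB, ← sum_tw]
        exact Finset.sum_congr rfl fun ε _ => term1 H hAB ε
      have e0 : ∑ ε : M → Bool, ckG 1 ((0 : Fin 2) : ℕ) (fun z => if z = B true then 1 else 0) ε
          30 (-42) * φ ⟨2, 1, up (A true) (pt2G 1 ((0 : Fin 2) : ℕ) ε true)⟩ =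
          3 * ∑ ε ∈ Std A B, φ ⟨2, 2, fT4 1 1 1 0 ε⟩ := by
        rw [← sum_g1 H hAB, ← sum_fl, ← sum_tw (fun ε => g1 A B φ (fl ∘ ε))]
        exact Finset.sum_congr rfl fun ε _ => term0 H hAB ε
      rw [e1, e0]
      ring
    rw [t1, t2, t3, t4, H.v3, Finset.sum_add_distrib]
    ring
  · intro h ε
    exact H.iso (up_iso _ (pt2G_iso 1 h ε false))

end Vale.Agent.P273.D14.H462
end
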