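import Vale.Agent.P273.D14.H462.Last
import Vale.Agent.P273.D14.H387.Plug8

/-!
The functional on the strata algebra that satisfies Pixton's relations and does not vanish on the
element.
-/

noncomputable section
namespace Vale.Agent.P273.D14.H462
open Sum Vale.Agent.P273
open scoped Classical

/-- **The P side.** -/
theorem pside : ∃ s : Q.Fn (Fin 7 × Bool), Q.Pix 2 9 s ∧ H741.onX s ≠ 0 :=
  pside' fun _ _ _ _ _ _ _ h1 h2 h3 _ _ h4 => H387.nice2_ph ff_inv ff_br h1 h2 h3 h4

end Vale.Agent.P273.D14.H462
end
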