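import Vale.Agent.P273.D14.H462.Red
import Vale.Agent.P273.D14.H387.GSP

/-!
The functional `G φ` has the support property and is antisymmetric.
-/

noncomputable section
namespace Vale.Agent.P273.D14.H462
open Sum Vale.Agent.P273 Vale.Agent.P273.D14.H387
open scoped Classical

theorem sp_G' (φ : Und) : SP (G φ) := by
  intro V E a f h v
  obtain ⟨h1, h2, h3, h4⟩ := sp_G h v
  exact ⟨h2.symm, h1, h4, h3⟩

theorem as_G {φ : Und} (hφ : φ.Inv) : AS (G φ) := by
  intro i j c hij V E a f
  exact anti_G hφ hij c V E a f

end Vale.Agent.P273.D14.H462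
end
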