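import Vale.Agent.P273.D14.H118.F12
import Vale.Agent.P273.D14.H387.Plug6
import Vale.Agent.P273.D14.H599.F11
import Vale.Agent.P273.D14.H18.F0
import Vale.Agent.P273.D14.H743.FStar2

/-!
The four families and the P side.
-/

noncomputable section
namespace Vale.Agent.P273.D14.H462
open Sum Vale.Agent.P273 Vale.Agent.P273.D14.H118
open scoped Classical

theorem f0_ff : F0 (H387.G ff) := H18.f0_G ff_inv fun _ _ _ _ h v => FS.f_star' h v

theorem f11_ff : F11 (H387.G ff) := H599.f11_G ff_inv ff_br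

/-- The remaining statement. -/
def N2St : Prop := ∀ (R T L : Type) [Finite R] [Finite T] [Fintype L] (W : Env R T L LL),
  (∀ y z x, W.use y = inl x → W.use z = inl x → y = z) → (∀ x, W.b x = 0) →
  (∀ r, 0 ∉ (W.dec r).2) → ∀ (i : Bool → Bool → Fin 8) (x : Bool → Bool → L), Two W.use i x →
  Nice2 (x true) (x false) (H387.ph ff W)

theorem f12_ff (hN : N2St) : F12 (H387.G ff) := by
  intro R T L _ _ _ r u hr hu i x h2 Z hZ hZx hall
  have := Fintype.ofFinite L
  let W : Env R T L LL := ⟨r, u, fun _ => 0⟩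
  have : Finite (HH W) := Subtype.finite
  have := Fintype.ofFinite (HH W)
  obtain ⟨c, -, hc⟩ := H387.vals (W := W) ff_inv ff_br hu (fun _ => rfl) hr h2
  exact f12_core W hu h2 hZ hZx hall (hN R T L W hu (fun _ => rfl) hr i x h2)
    (c := c) ⟨fun ε hε => (hc ε hε).1, fun ε hε => (hc ε hε).2⟩

theorem f12b_ff (hN : N2St) : F12b (H387.G ff) := by
  intro R T L _ _ _ r u hr hu i x h2 c hall
  have := Fintype.ofFinite L
  let W : Env R T L LL := ⟨r, u, fun _ => 0⟩
  have : Finite (HH W) := Subtype.finite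
  have := Fintype.ofFinite (HH W)
  obtain ⟨c', -, hc⟩ := H387.vals (W := W) ff_inv ff_br hu (fun _ => rfl) hr h2
  refine f12b_core (x_ne' (W := W) hu h2) (x_ne (W := W) hu h2)
    (hN R T L W hu (fun _ => rfl) hr i x h2) ?_ c
  exact sum_DL W hu h2 hall (c := c') ⟨fun ε hε => (hc ε hε).1, fun ε hε => (hc ε hε).2⟩

theorem pside' (hN : N2St) : ∃ s : Q.Fn (Fin 7 × Bool), Q.Pix 2 9 s ∧ H741.onX s ≠ 0 :=
  pside_of f0_ff f11_ff (f12_ff hN) (f12b_ff hN)

end Vale.Agent.P273.D14.H462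
end
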