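import Vale.Agent.P273.D14.H462.Cnt
import Vale.Agent.P273.D14.H741.Upd

/-!
The classes `κ_0` at the vertices of the environment of a relation can be removed.
-/

noncomputable section
namespace Vale.Agent.P273.D14.H462
open Sum Vale.Agent.P273 Vale.Agent.P273.C1.R3B Vale.Agent.P273.C1.R1B
open scoped Classical

variable {V E L N R T : Type}

lemma rl_kap0 [Finite L] {g d : ℕ} {s : Q.Fn N} (hs : Q.Tr g d s)
    (r : R → ℕ × Multiset ℕ) (u : (T × Bool) ⊕ N → L ⊕ R × ℕ) (b A : L → ℕ) (γ e : ℕ)
    (v : R) (K : Multiset ℕ) :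
    ∃ c : ℚ, rl s (Function.update r v ((r v).1, 0 ::ₘ K)) u b A γ e =
      c * rl s (Function.update r v ((r v).1, K)) u b A γ e := by
  let W : Env R T L N := ⟨Function.update r v ((r v).1, K), u, b⟩
  let W' : Env R T L N := ⟨Function.update r v ((r v).1, 0 ::ₘ K), u, b⟩
  refine ⟨2 * ((r v).1 : ℚ) - 2 + W.nR v + K.card, ?_⟩
  change rl s W'.dec W'.use W'.b A γ e = _ * rl s W.dec W.use W.b A γ e
  rw [rl_eq, rl_eq, Finset.mul_sum]
  apply Finset.sum_congr rfl
  intro p _
  rw [mul_left_comm]
  congr 1
  have h1 : (W'.graft p.2.2).hf = (W.graft p.2.2).hf := rfl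
  have h2 : (W'.graft p.2.2).dec = Function.update (W.graft p.2.2).dec (inr v)
      (((W.graft p.2.2).dec (inr v)).1, 0 ::ₘ ((W.graft p.2.2).dec (inr v)).2) := by
    funext w
    rcases w with w | w
    · rw [Function.update_of_ne (by simp)]
      rfl
    · by_cases hw : w = v
      · subst hw
        rw [Function.update_self]
        simp only [Env.graft_dec_inr, W, W', Function.update_self]
      · rw [Function.update_of_ne (by simpa using hw)]
        simp only [Env.graft_dec_inr, W, W', Function.update_of_ne hw]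
  rw [h1, h2]
  have h3 := hs.2.2 _ _ (W.graft p.2.2).dec (W.graft p.2.2).hf (inr v)
  have h4 : Q.nv (W.graft p.2.2).hf (inr v) = W.nR v := nv_graft_inr W p.2.2 v
  have h5 : (W.graft p.2.2).dec (inr v) = ((r v).1, K) := by
    simp only [Env.graft_dec_inr, W, Function.update_self]
  rw [h4, h5] at h3
  rw [h5]
  exact (congrArg (fun z => s _ _ z _) (upd_eq _ _ _ _ _)).trans h3

/-- The classes `κ_0` in the environment can be removed. -/
theorem rl_nozero [Finite R] [Finite L] {g d : ℕ} {s : Q.Fn N} (hs : Q.Tr g d s)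
    (r : R → ℕ × Multiset ℕ) (u : (T × Bool) ⊕ N → L ⊕ R × ℕ) (b A : L → ℕ) (γ e : ℕ) :
    ∃ (c : ℚ) (r' : R → ℕ × Multiset ℕ), (∀ v, 0 ∉ (r' v).2) ∧
      rl s r u b A γ e = c * rl s r' u b A γ e := by
  have := Fintype.ofFinite R
  obtain ⟨n, hn⟩ : ∃ n, ∑ v, (r v).2.card = n := ⟨_, rfl⟩
  induction n using Nat.strong_induction_on generalizing r with
  | _ n ih =>
    by_cases hex : ∃ v, 0 ∈ (r v).2
    · obtain ⟨v, hv⟩ := hex
      obtain ⟨K, hK⟩ := Multiset.exists_cons_of_mem hv
      obtain ⟨c, hc⟩ := rl_kap0 hs r u b A γ e v K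
      have h1 : Function.update r v ((r v).1, 0 ::ₘ K) = r := by
        funext w
        by_cases hw : w = v
        · subst hw
          rw [Function.update_self, ← hK]
        · rw [Function.update_of_ne hw]
      rw [h1] at hc
      have h2 : ∑ w, ((Function.update r v ((r v).1, K)) w).2.card < n := by
        rw [← hn]
        apply Finset.sum_lt_sum
        · intro w _
          by_cases hw : w = v
          · subst hw
            rw [Function.update_self, hK, Multiset.card_cons]
            exact Nat.le_succ _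
          · rw [Function.update_of_ne hw]
        · refine ⟨v, Finset.mem_univ v, ?_⟩
          rw [Function.update_self, hK, Multiset.card_cons]
          exact Nat.lt_succ_self _
      obtain ⟨c', r', h3, h4⟩ := ih _ h2 _ rfl
      exact ⟨c * c', r', h3, by rw [hc, h4, mul_assoc]⟩
    · push Not at hex
      exact ⟨1, r, hex, by rw [one_mul]⟩

end Vale.Agent.P273.D14.H462
end
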